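import Vale.Agent.P328C.All

/-!
Contingency tables with arbitrary margins: a fully polynomial randomised approximation scheme for
their number.
-/

namespace Vale.Agent.Results.P328.AACount

open Vale.Agent.P328 Vale.Agent.Lib.PTM

theorem result :
    ∃ (M : Machine) (d : ℕ), ∀ (m n : ℕ) (r : Fin m → ℕ) (c : Fin n → ℕ),
      1 ≤ m → 1 ≤ n → ∑ i, r i = ∑ j, c j → ∀ ε δ : ℚ, 0 < ε → ε < 1 → 0 < δ → δ < 1 →
        ∀ (L : ℝ) (T : ℕ), L = m + n + ∑ i, Real.logb 2 (r i + 2) + ∑ j, Real.logb 2 (c j + 2) →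
        (L + 1 / (ε : ℝ) + Real.logb 2 (1 / (δ : ℝ)) + Real.logb 2 (ε.num * δ.num)) ^ d ≤ T →
        ∀ out : (Fin T → Bool) → M.Cfg,
          (∀ ρ, out ρ = M.run (pair (vec r) (pair (vec c) (pair (rat ε) (rat δ)))) (List.ofFn ρ)) →
          (∀ ρ, (out ρ).l = none) ∧
          (1 - δ : ℝ) ≤ (Nat.card {ρ // ∃ a : ℕ, (out ρ).stk 0 = a.bits ∧
            (1 - ε : ℝ) * (tables r c).card ≤ a ∧
              (a : ℝ) ≤ (1 + ε) * (tables r c).card} : ℝ) / 2 ^ T :=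
  Vale.Agent.P328C.fpras

end Vale.Agent.Results.P328.AACount
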